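import Vale.Agent.P167.N.H704.Q.TubV
import Vale.Agent.P167.N.Base.VR
import Vale.Agent.P167.N.H192.Q.RatB
import Vale.Agent.P167.N.MIX.RatK
import Vale.Agent.P167.H704.Q.GDefs

/-!
# P167, `0 < q < 1`, block Q-NSYM: minorization

`minor' : Kit Q → RSW Q → MINOR' Q`: uniformly in the state (tip at height `4 l`, all pasts, all
outsides), the probability of a configuration of the half annulus with a gate whose sites are joined to
the two banks of the tip off the central box is at least `c` times the probability of the same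
configuration with arms in a reference box. Positive association is replaced by `arm_bank`.
-/

set_option autoImplicit false

namespace Vale.Agent.P167.N.H704.Q

open Finset Vale.Agent.P145.FB Vale.Agent.P153 Vale.Agent.P153.Topo Vale.Agent.P167
  Vale.Agent.P167.H632 Vale.Agent.P167.H871 Vale.Agent.P167.H704 Vale.Agent.P167.H704.Q
  Vale.Agent.P167.FK Vale.Agent.P167.FKA
open Vale.Agent.P167.H318 (St Pt0 st)
open Vale.Agent.P167.H318.UQ (Rc mem_Rc Cq Aq Gt ArE ArW Uh Lnk)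
open Vale.Agent.P167.H685.Q (PQ TC hbF mem_hbF)
open Vale.Agent.P167.H192.TA (Pw)
open Vale.Agent.P167.N.NET (Jn Vc VT)
open Vale.Agent.P167.N.MIX (RatS)
open Relation

variable {K3 K x n y l : ℤ} {b : Bool} {e : Ed} {ω : Cfg} {S : St} {U : Pt → ℤ}

theorem pw_conn {G : Finset Pt} {C Rg : Set Pt} {s t : Pt} (h : Pw (cs b ω ∩ ↑G) s t)
    (hs : s ∈ Rg) (hC : ∀ v ∈ G, v ∉ C) (hR : ∀ v ∈ G, ∀ u : Pt, (u.1 = v.1 ∨ u.1 = v.1 + 1) →
      (u.2 = v.2 ∨ u.2 = v.2 + 1) → u ∈ Rg) : PConn (cs b ω ∩ Cᶜ) Rg s t := by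
  refine ⟨hs, ?_⟩
  induction h with
  | refl => exact ReflTransGen.refl
  | @tail u w _ huw ih =>
    have h1 := huw.1
    have h2 := huw.2.1
    have hm := huw.2.2
    refine ih.tail ⟨⟨h1, h2, hm.1, fun h => hC _ (Finset.mem_coe.1 hm.2) h⟩, ?_⟩
    refine hR _ (Finset.mem_coe.1 hm.2) w ?_ ?_
    · dsimp only
      omega
    · dsimp only
      omega

/-- the two links -/
theorem lnk_side {ρ : ℤ} (hn : 2 ≤ n) (hK3 : 8 ≤ K3) (hKK : K3 + 8 ≤ K) (hl : 4 * (K * n) ≤ l)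
    (hρ : 20 * l ≤ ρ) (he : e = Sum.inr (y, 4 * n - 1)) (hy : Odd y) (hyx : |y - x| ≤ 4 * n)
    (h : ω ∈ LN b S U K3 K x l n e) :
    ∃ i ≤ S.m, PConn (cs b ω ∩ (↑(Cq K3 x n))ᶜ) (Uh x ρ n) (bk b e) (bk b (st S.e0 S.z i)) := by
  have k1 : 8 * n ≤ K3 * n := mul_le_mul_of_nonneg_right hK3 (by omega)
  have k2 : K3 * n + 8 * n ≤ K * n := by
    have := mul_le_mul_of_nonneg_right hKK (show 0 ≤ n by omega)
    linarith
  obtain ⟨u, hu, z, ⟨i, hi, rfl⟩, huz⟩ := h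
  rw [Set.mem_singleton_iff] at hu
  subst hu
  have hb : (bk b e).2 = 4 * n ∧ y ≤ (bk b e).1 ∧ (bk b e).1 ≤ y + 1 := by
    rw [bk_gate he hy]
    cases b
    · exact ⟨rfl, by simp, by simp⟩
    · exact ⟨rfl, by simp, by simp⟩
  rw [abs_le] at hyx
  have hmem : ∀ v ∈ GA b K3 K x n ∪ (TBE b x l (K * n) n ∩ TR b S U x l (K * n)),
      x - 3 * l ≤ v.1 ∧ v.1 < x + 3 * l ∧ n ≤ v.2 ∧ v.2 < 7 * l ∧ v ∉ Cq K3 x n := by
    intro v hv
    rcases Finset.mem_union.1 hv with hv | hv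
    · rw [mem_GA] at hv
      refine ⟨by omega, by omega, by omega, by omega, fun h => ?_⟩
      rw [Cq, mem_Rc] at h
      omega
    · have hT := cols b x l (K * n) n
      have hLg := lg_cases b x l
      have h1 := (Finset.mem_inter.1 hv).1
      rw [mem_TBE] at h1
      clear hv
      have h2 : x - 3 * l ≤ v.1 ∧ v.1 < x + 3 * l ∧ n ≤ v.2 ∧ v.2 < 7 * l := by
        rcases hT with ⟨h0, h⟩ | ⟨h0, h⟩ <;> rcases hLg with ⟨h0', h'⟩ | ⟨h0', h'⟩ <;>
          rw [h0] at h0' <;> (try simp at h0') <;> clear h0 <;>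
          rcases h1 with h1 | h1 | h1 | h1 | h1 <;> omega
      have h3 : v.2 < 4 * n → v.1 < x - K3 * n ∨ x + K3 * n < v.1 := by
        intro h4
        rcases hT with ⟨h0, h⟩ | ⟨h0, h⟩ <;> rcases hLg with ⟨h0', h'⟩ | ⟨h0', h'⟩ <;>
          rw [h0] at h0' <;> (try simp at h0') <;> clear h0 <;>
          rcases h1 with h1 | h1 | h1 | h1 | h1 <;> omega
      clear hT hLg h1
      refine ⟨h2.1, h2.2.1, h2.2.2.1, h2.2.2.2, fun h => ?_⟩
      rw [Cq, mem_Rc] at h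
      omega
  refine ⟨i, hi, pw_conn huz ?_ (fun v hv h => (hmem v hv).2.2.2.2 (Finset.mem_coe.1 h))
    fun v hv u hu1 hu2 => ?_⟩
  · simp only [Uh, Set.mem_ofPred_eq]
    omega
  · obtain ⟨a1, a2, a3, a4, -⟩ := hmem v hv
    simp only [Uh, Set.mem_ofPred_eq]
    omega

theorem dep_LN (b : Bool) (S : St) (U : Pt → ℤ) (K3 K x l n : ℤ) (e : Ed) :
    Dep (GA b K3 K x n ∪ (TBE b x l (K * n) n ∩ TR b S U x l (K * n)))
      (LN b S U K3 K x l n e) := by
  rintro o o' ho ⟨u, hu, z, hz, huz⟩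
  have hs : cs b o ∩ ↑(GA b K3 K x n ∪ (TBE b x l (K * n) n ∩ TR b S U x l (K * n))) ⊆
      cs b o' ∩ ↑(GA b K3 K x n ∪ (TBE b x l (K * n) n ∩ TR b S U x l (K * n))) := fun v hv => by
    refine ⟨?_, hv.2⟩
    show o' v = b
    rw [← ho v (Finset.mem_coe.1 hv.2)]
    exact hv.1
  exact ⟨u, hu, z, hz, Pw.mono hs huz⟩

theorem ga_va : GA b K3 K x n ⊆ VA b K3 K x n := Finset.filter_subset _ _

/-- comparison with the reference box -/
theorem ref_le {Q : ℝ} (hQ : Kit Q) {L : ℤ} (hL : RatS Q L) {S : St} {l ρ K0 : ℤ} (hn : 1 ≤ n)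
    (hK3 : 8 ≤ K3) (hKK : K3 + 8 ≤ K) (hK0 : L * (L * (3 * K)) ≤ K0) (hl : K0 * n ≤ l)
    (hρ : 20 * l ≤ ρ) (hS : TC S l x ρ) {F : Cfg → ℝ} (hF0 : ∀ ω, 0 ≤ F ω)
    (hF : Loc (VA true K3 K x n ∪ VA false K3 K x n ∪ Aq K3 K x n) F) :
    Ex Q (hbF x (K0 * n)) eta0 F ≤ 8 * Ex Q S.F S.z F := by
  have hL2 := hL.two
  have k0 : 16 * n ≤ K * n := mul_le_mul_of_nonneg_right (by omega) (by omega)
  have k1 : L * (L * (3 * K * n)) ≤ K0 * n := by
    have := mul_le_mul_of_nonneg_right hK0 (show 0 ≤ n by omega)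
    linarith
  have k2 : 3 * (K * n) ≤ L * (L * (3 * K * n)) := by
    have t0 : 0 ≤ 3 * K * n := by nlinarith
    have t1 : 3 * K * n ≤ L * (3 * K * n) := by nlinarith
    have t2 : L * (3 * K * n) ≤ L * (L * (3 * K * n)) := by nlinarith
    linarith
  set R := L * (L * (3 * K * n)) with hR
  have hVV : ∀ v ∈ VA true K3 K x n ∪ VA false K3 K x n ∪ Aq K3 K x n,
      x - 2 * (K * n) ≤ v.1 ∧ v.1 ≤ x + 2 * (K * n) ∧ 0 ≤ v.2 ∧ v.2 ≤ K * n := by
    intro v hv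
    rw [Finset.mem_union, Finset.mem_union, mem_VA, mem_VA] at hv
    rcases hv with (⟨h1, h2 | ⟨h2, h3⟩⟩ | ⟨h1, h2 | ⟨h2, h3⟩⟩) | h2
    · rw [mem_Aq'] at h2
      omega
    · rcases h3 with ⟨-, h3⟩ | ⟨h3, -⟩
      · omega
      · simp at h3
    · rw [mem_Aq'] at h2
      omega
    · rcases h3 with ⟨h3, -⟩ | ⟨-, h3⟩
      · simp at h3
      · omega
    · rw [mem_Aq'] at h2
      omega
  have hbq : ∀ v ∈ Bq (x, 0) R, (v ∈ hbF x (K0 * n) ↔ 0 ≤ v.2) ∧ (v ∈ S.F ↔ 0 ≤ v.2) ∧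
      (v.2 < 0 → S.z v = false) := by
    intro v hv
    rw [H167.Q.mem_Bq] at hv
    dsimp only at hv
    refine ⟨?_, ⟨fun h => ?_, fun h => ?_⟩, fun h => ?_⟩
    · rw [mem_hbF]
      simp only [H318.HB, Set.mem_ofPred_eq]
      omega
    · by_contra hc
      exact (hS.gq.row v (by omega) (by omega) (by omega) (by omega)).1 h
    · exact hS.fresh v ⟨by omega, by omega, h, by omega⟩
    · exact (hS.gq.row v (by omega) (by omega) (by omega) (by omega)).2
  refine N.H192.Q.rat_bdy_dom (x := (x, 0)) (r := 3 * K * n) (R := R) hQ hL (by nlinarith) le_rfl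
    ?_ ?_ (fun v hv => ?_) hF0 hF f_good.2.1 hS.gq.good (fun v _ _ => rfl) (fun v hv hvD => ?_)
    (H635.shp_ge2 (c := 0) fun v hv => (hbq v (H635.ann_box hv)).1)
  · ext v
    rw [Finset.mem_inter, Finset.mem_inter]
    constructor
    · rintro ⟨h1, h2⟩
      exact ⟨(hbq v h2).2.1.2 ((hbq v h2).1.1 h1), h2⟩
    · rintro ⟨h1, h2⟩
      exact ⟨(hbq v h2).1.2 ((hbq v h2).2.1.1 h1), h2⟩
  · intro v hv
    have h1 := hVV v hv
    rw [mem_hbF]
    simp only [H318.HB, Set.mem_ofPred_eq]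
    omega
  · have h1 := hVV v hv
    rw [H167.Q.mem_Bq]
    dsimp only
    have : 3 * K * n = 3 * (K * n) := by ring
    omega
  · have h1 := hbq v hv
    exact h1.2.2 (by
      by_contra hc
      exact hvD (h1.2.1.2 (by omega)))

/-- **MINOR'.** -/
theorem minor' {Q : ℝ} (hQ : Kit Q) (_h : RSW Q) : MINOR' Q := by
  have hQ0 : 0 < Q := hQ.pos
  obtain ⟨L, hL⟩ := hQ.ratS
  intro K3 K hK3 hKK
  refine ⟨L * (L * (3 * K)), fun K0 hK0 => ⟨max K0 (4 * K), by omega, fun K1 hK1 => ?_⟩⟩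
  obtain ⟨c, hc, hc1, hB⟩ := tbe_ge hQ0 hQ.le (NET.vrs_of hQ0 hQ.le (vr816 hQ0 hQ.lt)) (2 * K1).toNat
  refine ⟨2, c * c / 8, by omega, by positivity, fun S l x ρ n γ e hn hl hl' hρ hS hG => ?_⟩
  have hn1 : 2 ≤ n := by omega
  have m0 : 4 * (K * n) ≤ l := by
    have := mul_le_mul_of_nonneg_right (show 4 * K ≤ K1 by omega) (show 0 ≤ n by omega)
    linarith
  have m1 : K0 * n ≤ l := by
    have := mul_le_mul_of_nonneg_right (show K0 ≤ K1 by omega) (show 0 ≤ n by omega)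
    linarith
  have m2 : 16 * n ≤ K * n := mul_le_mul_of_nonneg_right (by omega) (by omega)
  have m3 : l ≤ ((2 * K1).toNat : ℤ) * n := by
    rw [Int.toNat_of_nonneg (by omega)]
    exact hl'
  obtain ⟨⟨y, he, hy, hyx⟩, -, -⟩ := hG
  have hTB : H318.TB S x ρ (4 * l) (ρ + 1) x := hS.toTB
  obtain ⟨U, hU⟩ := H318.exists_pt0 hTB.toOk (show (1 : ℤ) ≤ 4 * l by omega) hTB.tip_hdv
    (hTB.flat.not x (by omega) (by omega))
  have hz : Good S.z := hS.gq.good
  -- the functions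
  set F : Cfg → ℝ := fun ω => (Eγ K3 K x n γ).indicator 1 ω *
    (AM true K3 K x n e ∩ AM false K3 K x n e).indicator 1 ω with hFdef
  have hF0 : ∀ ω, 0 ≤ F ω := fun ω => mul_nonneg (ind_nonneg _ _) (ind_nonneg _ _)
  have hF : Loc (VA true K3 K x n ∪ VA false K3 K x n ∪ Aq K3 K x n) F := by
    intro o o' ho
    have e1 := dep_loc (dep_Eγ (K3 := K3) (K := K) (x := x) (n := n) γ) o o' fun v hv =>
      ho v (Finset.mem_union_right _ hv)
    have e2 := dep_loc (dep_AM true K3 K x n e) o o' fun v hv =>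
      ho v (Finset.mem_union_left _ (Finset.mem_union_left _ hv))
    have e3 := dep_loc (dep_AM false K3 K x n e) o o' fun v hv =>
      ho v (Finset.mem_union_left _ (Finset.mem_union_right _ hv))
    simp only [hFdef, ind_inter]
    rw [e1, e2, e3]
  have s1 := ref_le hQ hL (by omega) hK3 hKK hK0 m1 hρ hS hF0 hF
  have s0 : FK.Pr Q (hbF x (K0 * n)) eta0 {ξ | (∀ v ∈ Aq K3 K x n, ξ v = γ v) ∧
      ArE K3 K x n ξ e ∧ ArW K3 K x n ξ e} = Ex Q (hbF x (K0 * n)) eta0 F := by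
    have e1 : {ξ : Cfg | (∀ v ∈ Aq K3 K x n, ξ v = γ v) ∧ ArE K3 K x n ξ e ∧ ArW K3 K x n ξ e} =
        Eγ K3 K x n γ ∩ (AM true K3 K x n e ∩ AM false K3 K x n e) := by
      ext ξ
      exact and_congr Iff.rfl (and_congr am_true.symm am_false.symm)
    rw [e1]
    exact Ex_congr fun S _ => ind_inter _ _ _
  -- the colour `true`
  have i1 : Ind (TR true S U x l (K * n)) (fun ω => (Eγ K3 K x n γ).indicator (1 : Cfg → ℝ) ω *
      (AM false K3 K x n e).indicator 1 ω) := by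
    intro o o' ho
    dsimp only
    rw [dep_ind (dep_Eγ γ) (aq_TR m0 true) o o' ho,
      dep_ind (dep_AM false K3 K x n e) (va_TR m2 m0 false) o o' ho]
  have i2 : Ind (TR false S U x l (K * n)) (fun ω => (Eγ K3 K x n γ).indicator (1 : Cfg → ℝ) ω *
      (LN true S U K3 K x l n e).indicator 1 ω) := by
    intro o o' ho
    dsimp only
    rw [dep_ind (dep_Eγ γ) (aq_TR m0 false) o o' ho,
      dep_ind (dep_LN true S U K3 K x l n e) ?_ o o' ho]
    rw [Finset.disjoint_union_left]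
    exact ⟨Finset.disjoint_of_subset_left ga_va (va_TR m2 m0 true),
      Finset.disjoint_of_subset_left Finset.inter_subset_right
        (disj_TR hTB (by omega) (by omega) (by omega) (by omega) hU true)⟩
  have s2 := arm_bank (b := true) (e := e) hQ0 hQ.le hn1 hK3 hKK m0 he hy hyx hz hTB (by omega)
    (by omega) (by omega) hU (W := fun ω => (Eγ K3 K x n γ).indicator (1 : Cfg → ℝ) ω *
      (AM false K3 K x n e).indicator 1 ω)
    (fun ω => mul_nonneg (ind_nonneg _ _) (ind_nonneg _ _)) i1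
  have s3 := arm_bank (b := false) (e := e) hQ0 hQ.le hn1 hK3 hKK m0 he hy hyx hz hTB (by omega)
    (by omega) (by omega) hU (W := fun ω => (Eγ K3 K x n γ).indicator (1 : Cfg → ℝ) ω *
      (LN true S U K3 K x l n e).indicator 1 ω)
    (fun ω => mul_nonneg (ind_nonneg _ _) (ind_nonneg _ _)) i2
  have s4 : Ex Q S.F S.z (fun ω => (Eγ K3 K x n γ).indicator (1 : Cfg → ℝ) ω *
      (LN true S U K3 K x l n e).indicator 1 ω * (LN false S U K3 K x l n e).indicator 1 ω) ≤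
      PQ Q S ({ξ | ∀ v ∈ Aq K3 K x n, ξ v = γ v} ∩ Lnk K3 S x n ρ e) := by
    refine Ex_mono hQ0 fun S' _ => ?_
    rw [← ind_inter, ← ind_inter]
    refine Set.indicator_le_indicator_of_subset ?_ (fun _ => zero_le_one) _
    rintro ω ⟨⟨h1, h2⟩, h3⟩
    refine ⟨h1, ?_, ?_⟩
    · exact lnk_side hn1 hK3 hKK m0 hρ he hy hyx h2
    · have h6 := lnk_side hn1 hK3 hKK m0 hρ he hy hyx h3
      rw [opc]
      exact h6
  have t1 := hB true x l (K * n) n (by omega) m2 m0 m3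
  have t2 := hB false x l (K * n) n (by omega) m2 m0 m3
  have e5 : Ex Q S.F S.z F = Ex Q S.F S.z (fun ω => (Eγ K3 K x n γ).indicator (1 : Cfg → ℝ) ω *
      (AM false K3 K x n e).indicator 1 ω * (AM true K3 K x n e).indicator 1 ω) :=
    Ex_congr fun S' _ => by
      simp only [hFdef, ind_inter]
      ring
  have e6 : Ex Q S.F S.z (fun ω => (Eγ K3 K x n γ).indicator (1 : Cfg → ℝ) ω *
      (LN true S U K3 K x l n e).indicator 1 ω * (AM false K3 K x n e).indicator 1 ω) =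
      Ex Q S.F S.z (fun ω => (Eγ K3 K x n γ).indicator (1 : Cfg → ℝ) ω *
      (AM false K3 K x n e).indicator 1 ω * (LN true S U K3 K x l n e).indicator 1 ω) :=
    Ex_congr fun S' _ => by ring
  have nF : 0 ≤ Ex Q S.F S.z F := Ex_nonneg hQ0 fun _ _ => hF0 _
  rw [e6] at s3
  rw [← e5] at s2
  rw [s0]
  set X := Ex Q S.F S.z (fun ω => (Eγ K3 K x n γ).indicator (1 : Cfg → ℝ) ω *
      (AM false K3 K x n e).indicator 1 ω * (LN true S U K3 K x l n e).indicator 1 ω) with hX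
  have nX : 0 ≤ X := Ex_nonneg hQ0 fun _ _ => mul_nonneg (mul_nonneg (ind_nonneg _ _)
    (ind_nonneg _ _)) (ind_nonneg _ _)
  have u1 : c * Ex Q S.F S.z F ≤ X := (mul_le_mul_of_nonneg_right t1 nF).trans s2
  have u2 : c * X ≤ PQ Q S ({ξ | ∀ v ∈ Aq K3 K x n, ξ v = γ v} ∩ Lnk K3 S x n ρ e) :=
    (mul_le_mul_of_nonneg_right t2 nX).trans (s3.trans s4)
  have u3 := mul_le_mul_of_nonneg_left u1 hc.le
  have u4 := mul_le_mul_of_nonneg_left s1 (show 0 ≤ c * c / 8 by positivity)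
  linarith

end Vale.Agent.P167.N.H704.Q
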