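import Vale.Agent.P167.H704.Q.Minor
import Vale.Agent.P167.H15.ArmQ

/-!
# P167, `0 < q < 1`, block Q-NSYM: planar duality in the region of the arm of the gate
-/

set_option autoImplicit false

namespace Vale.Agent.P167.N.H704.Q

open Finset Vale.Agent.P145.FB Vale.Agent.P153 Vale.Agent.P153.Topo Vale.Agent.P167
  Vale.Agent.P167.H632 Vale.Agent.P167.H871 Vale.Agent.P167.H704 Vale.Agent.P167.H704.Q
  Vale.Agent.P167.FK
open Vale.Agent.P167.H318.UQ (Aq Cq Rc mem_Rc)
open Vale.Agent.P167.H192.TA (Pw Pw.symm Pw.mono Pw.parity)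
open Vale.Agent.P167.N.NET (Jn Quad Fan)
open Vale.Agent.P167.H15
open Relation

/-- The squares of the arm of colour `b`, without the last column of the tube. -/
noncomputable def GA (b : Bool) (K3 K x n : ℤ) : Finset Pt :=
  (VA b K3 K x n).filter fun v => if b then v.1 < x + 2 * (K * n) else x - 2 * (K * n) < v.1

/-- columns of the tube -/
def Col (b : Bool) (x N : ℤ) (s : Pt) : Prop :=
  if b then x + N + 1 ≤ s.1 ∧ s.1 ≤ x + 2 * N else x - 2 * N + 1 ≤ s.1 ∧ s.1 ≤ x - N

variable {K3 K x n y : ℤ} {b : Bool} {e : Ed} {ω : Cfg}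

theorem mem_GA {v : Pt} : v ∈ GA b K3 K x n ↔
    (x - K * n ≤ v.1 ∧ v.1 ≤ x + K * n ∧ n ≤ v.2 ∧ 0 ≤ v.2 ∧ v.2 ≤ K * n ∧
      (v.1 < x + 2 * (K * n) ∨ b = false) ∧ (x - 2 * (K * n) < v.1 ∨ b = true) ∧
      ¬ ((x - K3 * n ≤ v.1 ∧ v.1 ≤ x + K3 * n) ∧ 0 ≤ v.2 ∧ v.2 ≤ 4 * n - 1)) ∨
    (n ≤ v.2 ∧ v.2 ≤ 2 * n - 1 ∧ ((b = true ∧ x + K * n + 1 ≤ v.1 ∧ v.1 < x + 2 * (K * n)) ∨
      (b = false ∧ x - 2 * (K * n) < v.1 ∧ v.1 ≤ x - K * n - 1))) := by
  rw [GA, Finset.mem_filter, mem_VA, mem_Aq']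
  cases b
  · simp only [Bool.false_eq_true, if_false, false_and, false_or, true_and, or_true, or_false]
    omega
  · simp only [if_true, Bool.true_eq_false, false_and, false_or, true_and, or_true, or_false]
    omega

theorem bk_gate (he : e = Sum.inr (y, 4 * n - 1)) (hy : Odd y) :
    bk b e = (if b then y + 1 else y, 4 * n) := by
  have hev : Even (y + (4 * n - 1)) := by
    obtain ⟨j, hj⟩ := hy
    exact ⟨j + 2 * n, by omega⟩
  rw [he]
  cases b
  · simp only [bk, rs, hev, if_true, Bool.false_eq_true, if_false]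
    refine Prod.ext rfl ?_
    dsimp only
    omega
  · simp only [bk, ls, hev, if_true]
    refine Prod.ext rfl ?_
    dsimp only
    omega

theorem ga_true (hn : 1 ≤ n) (hN : 16 * n ≤ K * n) : (↑(GA true K3 K x n) : Set Pt) =
    AG (4 * n) (x - K3 * n) (x + K3 * n) (x - K * n) (x + K * n) (x + 2 * (K * n)) n (2 * n)
      (K * n) := by
  ext v
  rw [Finset.mem_coe, mem_GA]
  simp only [AG, Set.mem_ofPred_eq, true_and, Bool.true_eq_false, false_and, or_false, or_true]
  omega

theorem ga_false (hn : 1 ≤ n) (hN : 16 * n ≤ K * n) : (↑(GA false K3 K x n) : Set Pt) =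
    rfq ⁻¹' AG (4 * n) (-x - K3 * n - 1) (-x + K3 * n - 1) (-x - K * n - 1) (-x + K * n - 1)
      (-x + 2 * (K * n) - 1) n (2 * n) (K * n) := by
  ext v
  rw [Finset.mem_coe, mem_GA]
  simp only [AG, rfq, Set.mem_preimage, Set.mem_ofPred_eq, true_and, Bool.false_eq_true, false_and,
    or_false, false_or, or_true]
  omega

/-- paths of the arm up to the far column -/
theorem cut_arm (f : Pt → ℤ) (hf : ∀ u v, PStep (cs b ω ∩ ↑(VA b K3 K x n)) u v → f v ≤ f u + 1)
    {R : ℤ} (hGA : ∀ u v, PStep (↑(VA b K3 K x n)) u v → f u ≤ R → f v ≤ R →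
      (min u.1 v.1, min u.2 v.2) ∈ GA b K3 K x n) {s t : Pt}
    (h : PConn (cs b ω ∩ ↑(VA b K3 K x n)) Set.univ s t) (hs : f s < R) (ht : R ≤ f t) :
    ∃ z, f z = R ∧ Pw (cs b ω ∩ ↑(GA b K3 K x n)) s z ∧ z ≠ s := by
  obtain ⟨z, h1, h2, -⟩ := pconn_cut_first f hf h hs.le ht
  refine ⟨z, h1, ?_, fun h => by rw [h] at h1; omega⟩
  have key : f z ≤ R ∧ Pw (cs b ω ∩ ↑(GA b K3 K x n)) s z := by
    obtain ⟨k0, k⟩ := h2
    clear h1
    induction k with
    | refl => exact ⟨hs.le, ReflTransGen.refl⟩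
    | @tail u v _ huv ih =>
      obtain ⟨i1, i2⟩ := ih
      have h3 : f v ≤ R := huv.2.2
      refine ⟨h3, i2.tail ⟨huv.1.1, huv.1.2.1, huv.1.2.2.1, ?_⟩⟩
      exact Finset.mem_coe.2 (hGA u v ⟨huv.1.1, huv.1.2.1, huv.1.2.2.2⟩ i1 h3)
  exact key.2

theorem end_ga {s z : Pt} (h : Pw (cs b ω ∩ ↑(GA b K3 K x n)) s z) (hne : z ≠ s) :
    ∃ v ∈ GA b K3 K x n, (z.1 = v.1 ∨ z.1 = v.1 + 1) ∧ (z.2 = v.2 ∨ z.2 = v.2 + 1) := by
  rcases ReflTransGen.cases_tail h with h1 | ⟨w, -, hw⟩
  · exact absurd h1 hne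
  · obtain ⟨v, hv, c1, c2, c3, c4⟩ := step_cor hw
    exact ⟨v, Finset.mem_coe.1 hv.2, by omega, by omega⟩

/-- **Duality in the region of the arm.** -/
theorem arm_data (hn : 2 ≤ n) (hK3 : 8 ≤ K3) (hKK : K3 + 8 ≤ K)
    (he : e = Sum.inr (y, 4 * n - 1)) (hy : Odd y) (hyx : |y - x| ≤ 4 * n) (b : Bool) :
    ∃ A₃ S₂ S₄ : Set Pt, Quad b ↑(GA b K3 K x n) {bk b e} A₃ S₂ S₄ ∧ Fan b ↑(GA b K3 K x n) ∧
      AM b K3 K x n e ⊆ Jn b ↑(GA b K3 K x n) {bk b e} A₃ ∧
      (∀ s : Pt, (s.1 + s.2) % 2 = pr (!b) → s.2 = n → Col b x (K * n) s → s ∈ S₂) ∧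
      ∀ s : Pt, (s.1 + s.2) % 2 = pr (!b) → s.2 = 2 * n → Col b x (K * n) s → s ∈ S₄ := by
  have k1 : 8 * n ≤ K3 * n := mul_le_mul_of_nonneg_right hK3 (by omega)
  have k2 : K3 * n + 8 * n ≤ K * n := by
    have := mul_le_mul_of_nonneg_right hKK (show 0 ≤ n by omega)
    linarith
  rw [abs_le] at hyx
  rw [bk_gate he hy]
  have hbk : bk b e = (if b then y + 1 else y, 4 * n) := bk_gate he hy
  rw [Int.odd_iff] at hy
  cases b with
  | true =>
    have hG : Geo y (4 * n) (x - K3 * n) (x + K3 * n) (x - K * n) (x + K * n) (x + 2 * (K * n)) n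
        (2 * n) (K * n) := ⟨hn, by omega, by omega, by omega, by omega, by omega, by omega,
      by omega, by omega, by omega⟩
    rw [ga_true (by omega) (by omega)]
    refine ⟨_, _, _, quad_gate hG (by simp only [pr, if_true]; omega), fan_arm hG, ?_, ?_, ?_⟩
    · rintro ω ⟨t, ht, harm⟩
      rw [hbk] at harm
      simp only [Far, if_true] at ht harm
      obtain ⟨z, hz, hp, hne⟩ := cut_arm (b := true) (fun w => w.1) (R := x + 2 * (K * n))
        (fun u v h => by have := h.1; omega) (fun u v h h1 h2 => by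
          obtain ⟨s1, s2, s3⟩ := h
          rw [GA, Finset.mem_filter]
          refine ⟨Finset.mem_coe.1 s3, ?_⟩
          rw [if_pos rfl]
          dsimp only at h1 h2 ⊢
          omega) harm (by omega) ht
      obtain ⟨v, hv, v1, v2⟩ := end_ga hp hne
      rw [ga_true (by omega) (by omega)] at hp
      have hpar := Pw.parity hp
      dsimp only at hpar hz
      refine ⟨_, Set.mem_singleton _, z, ⟨?_, hz, ?_, ?_⟩, by simpa using hp⟩
      · simp only [pr, if_true]
        omega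
      · rw [mem_GA] at hv
        omega
      · rw [mem_GA] at hv
        omega
    · intro s h1 h2 h3
      simp only [Col, if_true] at h3
      refine ⟨h1, by omega, Or.inr (Or.inr ⟨by omega, by omega⟩)⟩
    · intro s h1 h2 h3
      simp only [Col, if_true] at h3
      refine ⟨h1, by omega, Or.inr (Or.inr (Or.inr (Or.inr ⟨by omega, by omega⟩)))⟩
  | false =>
    have hG : Geo (-y - 1) (4 * n) (-x - K3 * n - 1) (-x + K3 * n - 1) (-x - K * n - 1)
        (-x + K * n - 1) (-x + 2 * (K * n) - 1) n (2 * n) (K * n) := ⟨hn, by omega, by omega,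
      by omega, by omega, by omega, by omega, by omega, by omega, by omega⟩
    rw [ga_false (by omega) (by omega)]
    have hS : (rfs ⁻¹' {(-y - 1 + 1, 4 * n)} : Set Pt) = {(if false = true then y + 1 else y, 4 * n)} := by
      ext s
      simp only [Set.mem_preimage, Set.mem_singleton_iff, rfs, Prod.mk.injEq, Bool.false_eq_true,
        if_false]
      constructor
      · rintro ⟨h1, h2⟩
        exact Prod.ext (by dsimp only; omega) h2
      · intro h
        rw [h]
        exact ⟨by dsimp only; omega, rfl⟩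
    have hq := quad_rf (quad_gate (e := false) hG (by simp only [pr]; simp; omega))
    rw [hS] at hq
    refine ⟨_, _, _, hq, fan_rf (fan_arm hG), ?_, ?_, ?_⟩
    · rintro ω ⟨t, ht, harm⟩
      rw [hbk] at harm
      simp only [Far, Bool.false_eq_true, if_false] at ht harm
      obtain ⟨z, hz, hp, hne⟩ := cut_arm (b := false) (fun w => -w.1) (R := -x + 2 * (K * n) - 1)
        (fun u v h => by have := h.1; omega) (fun u v h h1 h2 => by
          obtain ⟨s1, s2, s3⟩ := h
          rw [GA, Finset.mem_filter]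
          refine ⟨Finset.mem_coe.1 s3, ?_⟩
          rw [if_neg (by simp)]
          dsimp only at h1 h2 ⊢
          omega) harm (by omega) (by omega)
      obtain ⟨v, hv, v1, v2⟩ := end_ga hp hne
      rw [ga_false (by omega) (by omega)] at hp
      have hpar := Pw.parity hp
      dsimp only at hpar hz
      refine ⟨_, Set.mem_singleton _, z, ⟨?_, ?_, ?_, ?_⟩, by simpa using hp⟩
      · simp only [pr, rfs, Bool.false_eq_true, if_false]
        omega
      · simp only [rfs]
        omega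
      · rw [mem_GA] at hv
        simp only [rfs]
        omega
      · rw [mem_GA] at hv
        simp only [rfs]
        omega
    · intro s h1 h2 h3
      simp only [Col, Bool.false_eq_true, if_false] at h3
      refine ⟨par_rf.2 h1, ?_, Or.inr (Or.inr ?_)⟩
      · simp only [rfs]
        omega
      · simp only [rfs]
        omega
    · intro s h1 h2 h3
      simp only [Col, Bool.false_eq_true, if_false] at h3
      refine ⟨par_rf.2 h1, ?_, Or.inr (Or.inr (Or.inr (Or.inr ?_)))⟩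
      · simp only [rfs]
        omega
      · simp only [rfs]
        omega

end Vale.Agent.P167.N.H704.Q
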