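import Vale.Agent.P167.N.H704.Q.ArmB
import Vale.Agent.P167.H15.Net1
import Vale.Agent.P167.N.Kit

/-!
# P167, `0 < q < 1`, block Q-NSYM: the arm of the gate is joined to the bank

The tube `TBE`: up from height `n` in the tube of the arm, the corridor, the leg and the arch.
`arm_bank`: the arm is joined to the bank through the tube.
-/

set_option autoImplicit false

namespace Vale.Agent.P167.N.H704.Q

open Finset Vale.Agent.P145.FB Vale.Agent.P153 Vale.Agent.P153.Topo Vale.Agent.P167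
  Vale.Agent.P167.H632 Vale.Agent.P167.H871 Vale.Agent.P167.H704 Vale.Agent.P167.H704.Q
  Vale.Agent.P167.FK Vale.Agent.P167.FKA
open Vale.Agent.P167.H318 (St Pt0 st)
open Vale.Agent.P167.H318.UQ (Aq Cq Rc mem_Rc Uh)
open Vale.Agent.P167.H262 (Rsq mem_Rsq)
open Vale.Agent.P167.H192.TA (Pw Pw.symm Pw.mono Pw.parity)
open Vale.Agent.P167.N.NET (Jn Quad Fan Bd VT Vc Nx)
open Vale.Agent.P167.H15
open Relation

/-- the tube from the arm of colour `b` to the far leg of the arch -/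
noncomputable def TBE (b : Bool) (x l N n : ℤ) : Finset Pt :=
  Rsq (pT b x N n) (pT b x N n + n) n (3 * n) ∪
    (Rsq (pL b x l N n) (pR b x l N n) (2 * n) (3 * n) ∪
      (Rsq (lg b x l) (lg b x l + l) (2 * n) (7 * l) ∪
        (Rsq (x - 3 * l) (x + 3 * l) (6 * l) (7 * l) ∪
          Rsq (lg (!b) x l) (lg (!b) x l + l) (3 * l) (7 * l))))

/-- the lower end of the tube -/
def TLo (b : Bool) (x N n : ℤ) : Set Pt :=
  {s | (s.1 + s.2) % 2 = pr b ∧ s.2 = n ∧ pT b x N n ≤ s.1 ∧ s.1 ≤ pT b x N n + n}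

/-- the far end of the tube -/
def TFa (b : Bool) (x l : ℤ) : Set Pt :=
  {s | (s.1 + s.2) % 2 = pr b ∧ s.2 = 3 * l ∧ lg (!b) x l ≤ s.1 ∧ s.1 ≤ lg (!b) x l + l}

variable {K3 K x n y l N v w H : ℤ} {b : Bool} {e : Ed} {ω : Cfg} {S : St} {U : Pt → ℤ}

theorem lg_cases (b : Bool) (x l : ℤ) : (b = true ∧ lg b x l = x + 2 * l ∧
    lg (!b) x l = x - 3 * l) ∨ (b = false ∧ lg b x l = x - 3 * l ∧ lg (!b) x l = x + 2 * l) := by
  cases b
  · exact Or.inr ⟨rfl, rfl, rfl⟩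
  · exact Or.inl ⟨rfl, rfl, rfl⟩

theorem mem_TBE {t : Pt} : t ∈ TBE b x l N n ↔
    (pT b x N n ≤ t.1 ∧ t.1 < pT b x N n + n ∧ n ≤ t.2 ∧ t.2 < 3 * n) ∨
    (pL b x l N n ≤ t.1 ∧ t.1 < pR b x l N n ∧ 2 * n ≤ t.2 ∧ t.2 < 3 * n) ∨
    (lg b x l ≤ t.1 ∧ t.1 < lg b x l + l ∧ 2 * n ≤ t.2 ∧ t.2 < 7 * l) ∨
    (x - 3 * l ≤ t.1 ∧ t.1 < x + 3 * l ∧ 6 * l ≤ t.2 ∧ t.2 < 7 * l) ∨
    (lg (!b) x l ≤ t.1 ∧ t.1 < lg (!b) x l + l ∧ 3 * l ≤ t.2 ∧ t.2 < 7 * l) := by
  simp only [TBE, Finset.mem_union, mem_Rsq]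

theorem tlo_bd (hn : 1 ≤ n) (hN : 16 * n ≤ N) (hl : 4 * N ≤ l) :
    TLo b x N n ⊆ Bd b (TBE b x l N n) := by
  rintro s ⟨hp, h1, h2, h3⟩
  refine ⟨(s.1, s.2 - 1), ?_, Or.inl rfl, Or.inr ?_, hp⟩
  · rw [mem_TBE]
    dsimp only
    omega
  · dsimp only
    omega

theorem tfa_bd (hn : 1 ≤ n) (hN : 16 * n ≤ N) (hl : 4 * N ≤ l) :
    TFa b x l ⊆ Bd b (TBE b x l N n) := by
  rintro s ⟨hp, h1, h2, h3⟩
  refine ⟨(s.1, s.2 - 1), ?_, Or.inl rfl, Or.inr ?_, hp⟩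
  · rw [mem_TBE]
    dsimp only
    have hT := cols b x l N n
    have hL := lg_cases b x l
    rcases hT with ⟨h0, h⟩ | ⟨h0, h⟩ <;> rcases hL with ⟨h0', h'⟩ | ⟨h0', h'⟩ <;>
      rw [h0] at h0' <;> (try simp at h0') <;> omega
  · dsimp only
    omega

/-- the squares of the tube which are visited or on the other side -/
noncomputable def LB (b : Bool) (S : St) (U : Pt → ℤ) (x l N n : ℤ) : Finset Pt :=
  TBE b x l N n \ TR b S U x l N

theorem lb_TT (hn : 1 ≤ n) (hN : 16 * n ≤ N) (hl : 4 * N ≤ l) {t : Pt}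
    (ht : t ∈ LB b S U x l N n) : t ∈ TT x l ∧ t ∉ CU b S (TT x l) U ∧
      (5 * l ≤ t.2 ∨ t.1 < x - l ∨ x + l ≤ t.1) ∧ l ≤ t.2 := by
  obtain ⟨h1, h2⟩ := Finset.mem_sdiff.1 ht
  have h3 : t ∉ ER b x l N := fun h => h2 (Finset.mem_union_left _ h)
  have h4 : t ∉ CU b S (TT x l) U := fun h => h2 (Finset.mem_union_right _ h)
  rw [mem_TBE] at h1
  rw [mem_ER] at h3
  have h5 : 5 * l ≤ t.2 ∨ ((t.1 < x - l ∨ x + l ≤ t.1) ∧ 3 * l ≤ t.2) := by
    have hT := cols b x l N n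
    have hL := lg_cases b x l
    by_contra hc
    rcases hT with ⟨h0, h⟩ | ⟨h0, h⟩ <;> rcases hL with ⟨h0', h'⟩ | ⟨h0', h'⟩
    · apply h3
      refine ⟨Or.inl ⟨h0, ?_, ?_⟩, ?_, ?_⟩ <;> omega
    · rw [h0] at h0'
      simp at h0'
    · rw [h0] at h0'
      simp at h0'
    · apply h3
      refine ⟨Or.inr ⟨h0, ?_, ?_⟩, ?_, ?_⟩ <;> omega
  have hT := cols b x l N n
  have hL := lg_cases b x l
  refine ⟨?_, h4, ?_, ?_⟩
  · rw [mem_TT]
    rcases hT with ⟨h0, h⟩ | ⟨h0, h⟩ <;> rcases hL with ⟨h0', h'⟩ | ⟨h0', h'⟩ <;> omega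
  · omega
  · omega

/-- the part of the tube of the colour `b` -/
theorem tb_lb (b : Bool) (S : St) (U : Pt → ℤ) (x l N n : ℤ) :
    TBE b x l N n \ LB b S U x l N n = TBE b x l N n ∩ TR b S U x l N := by
  ext t
  rw [LB, Finset.mem_sdiff, Finset.mem_sdiff, Finset.mem_inter]
  tauto

/-- the sites of the bank of colour `b` -/
def BkS (b : Bool) (S : St) : Set Pt := {z | ∃ i ≤ S.m, z = bk b (st S.e0 S.z i)}

/-- the gate is joined to the bank of colour `b` -/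
def LN (b : Bool) (S : St) (U : Pt → ℤ) (K3 K x l n : ℤ) (e : Ed) : Set Cfg :=
  Jn b ↑(GA b K3 K x n ∪ (TBE b x l (K * n) n ∩ TR b S U x l (K * n))) {bk b e} (BkS b S)

theorem cor_TR (hB : H318.TB S v w (4 * l) H x) (hl : 1 ≤ l) (hN : 1 ≤ N) (hH : 8 * l ≤ H)
    (hx1 : v - w ≤ x - 8 * l) (hx2 : x + 8 * l ≤ v + w) (hU : Pt0 S x (4 * l) U) {q z : Pt}
    (hq : q ∈ TR b S U x l N) (h1 : z.1 = q.1 ∨ z.1 = q.1 + 1) (h2 : z.2 = q.2 ∨ z.2 = q.2 + 1) :
    U z = U (bk b S.tip) := by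
  rcases Finset.mem_union.1 hq with h | h
  · rw [mem_ER] at h
    obtain ⟨h3, h4, h5⟩ := h
    rcases h3 with ⟨rfl, h6, h7⟩ | ⟨rfl, h6, h7⟩
    · exact H318.east hB hl hx1 hx2 hU (by omega) (by omega) (by omega) (by omega)
    · exact H318.west hB hl hx1 hx2 hU (by omega) (by omega) (by omega) (by omega)
  · exact cu_val hU hB.toOk (by omega) hB.tip_hdv (tb_tok hB hl hH hx1 hx2) h ⟨h1, h2⟩

/-- **The end of the path is on the bank.** -/
theorem ln_of_jn (hn : 1 ≤ n) (hN : 16 * n ≤ K * n) (hl : 4 * (K * n) ≤ l)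
    (hB : H318.TB S v w (4 * l) H x) (hH : 8 * l ≤ H)
    (hx1 : v - w ≤ x - 8 * l) (hx2 : x + 8 * l ≤ v + w) (hU : Pt0 S x (4 * l) U)
    (hb : (bk b e).2 = 4 * n)
    (hω : ω ∈ Jn b ↑(GA b K3 K x n ∪ (TBE b x l (K * n) n \ LB b S U x l (K * n) n)) {bk b e}
      (TFa b x l ∪ Vc b ↑(LB b S U x l (K * n) n))) : ω ∈ LN b S U K3 K x l n e := by
  obtain ⟨u, hu, z, hz, huz⟩ := hω
  rw [tb_lb] at huz
  refine ⟨u, hu, z, ?_, huz⟩
  rw [Set.mem_singleton_iff] at hu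
  have hzl : l ≤ z.2 := by
    rcases hz with hz | ⟨t, ht, hz⟩
    · have := hz.2.1
      omega
    · have h1 := (lb_TT hn hN hl (Finset.mem_coe.1 ht)).2.2.2
      have h2 := hz.2.1
      omega
  have hzp : (z.1 + z.2) % 2 = pr b := by
    rcases hz with hz | ⟨t, -, hz⟩
    · exact hz.1
    · exact hz.2.2
  rcases ReflTransGen.cases_tail huz with h1 | ⟨z', -, hz'⟩
  · exfalso
    rw [← hu, ← h1] at hb
    omega
  obtain ⟨g, ⟨-, hg⟩, c1, c2, c3, c4⟩ := step_cor hz'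
  have c5 : z.1 = g.1 ∨ z.1 = g.1 + 1 := by omega
  have c6 : z.2 = g.2 ∨ z.2 = g.2 + 1 := by omega
  rcases Finset.mem_union.1 (Finset.mem_coe.1 hg) with hg | hg
  · exfalso
    rw [mem_GA] at hg
    omega
  have hgR := (Finset.mem_inter.1 hg).2
  have hUz := cor_TR hB (by omega) (by omega) hH hx1 hx2 hU hgR c5 c6
  have hp := tb_hp hB (by omega) hx1 hx2 hU
  rcases hz with ⟨-, k1, k2, k3⟩ | ⟨t, ht, hz⟩
  · -- the far leg
    exfalso
    have h3 := leg_val hB (by omega) hx1 hx2 hU (!b) (a := z) k2 k3 (by omega) (by omega)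
    have h7 : U (ls S.tip) = U (rs S.tip) + 1 := hp S.m le_rfl
    rw [h3] at hUz
    cases b
    · have e1 : U (ls S.tip) = U (rs S.tip) := hUz
      omega
    · have e1 : U (rs S.tip) = U (ls S.tip) := hUz
      omega
  · obtain ⟨h1, h2, -, -⟩ := lb_TT hn hN hl (Finset.mem_coe.1 ht)
    exact (cor_cases (e := b) hU hB.toOk (by omega) hB.tip_hdv hp (tb_tok hB (by omega) hH hx1 hx2)
      h1 ⟨hz.1, hz.2.1⟩ hzp hUz).resolve_left h2

theorem near1 {a c : ℤ} (h : a = c ∨ a = c + 1) : c ≤ a ∧ a ≤ c + 1 := by omega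

/-- the tube leaves the region of the arm through its upper side -/
theorem tube_exit (hn : 1 ≤ n) (hN : 16 * n ≤ K * n) (hN3 : K3 * n + 8 * n ≤ K * n)
    (hl : 4 * (K * n) ≤ l) {t p g : Pt}
    (ht : t ∈ TBE b x l (K * n) n) (htG : t ∉ GA b K3 K x n) (p1 : p.1 = t.1 ∨ p.1 = t.1 + 1)
    (p2 : p.2 = t.2 ∨ p.2 = t.2 + 1) (hg : g ∈ GA b K3 K x n) (g1 : p.1 = g.1 ∨ p.1 = g.1 + 1)
    (g2 : p.2 = g.2 ∨ p.2 = g.2 + 1) :
    p.2 = 2 * n ∧ ((b = true ∧ x + K * n + 1 + n ≤ p.1 ∧ p.1 ≤ x + 2 * (K * n)) ∨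
        (b = false ∧ x - 2 * (K * n) + 1 ≤ p.1 ∧ p.1 ≤ x - K * n - n)) := by
  have q1 : t.1 ≤ p.1 ∧ p.1 ≤ t.1 + 1 := near1 p1
  have q2 : t.2 ≤ p.2 ∧ p.2 ≤ t.2 + 1 := near1 p2
  have q3 : g.1 ≤ p.1 ∧ p.1 ≤ g.1 + 1 := near1 g1
  have q4 : g.2 ≤ p.2 ∧ p.2 ≤ g.2 + 1 := near1 g2
  clear p1 p2 g1 g2
  rw [mem_TBE] at ht
  rw [mem_GA] at hg htG
  generalize K * n = N at *
  generalize K3 * n = M at *
  cases b with
  | true =>
    simp only [pT, pL, pR, lg, if_true, Bool.not_true, Bool.false_eq_true, if_false] at ht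
    simp only [true_and, Bool.true_eq_false, false_and, or_false, or_true] at hg htG ⊢
    have h3 : 2 * n ≤ t.2 := by
      by_contra h
      refine htG (Or.inr ⟨?_, ?_, ?_, ?_⟩) <;> rcases ht with ht | ht | ht | ht | ht <;> omega
    clear htG
    have h4 : p.1 ≤ x - 2 * l ∨ 6 * l ≤ p.2 ∨ x + N + 1 + n ≤ p.1 := by
      rcases ht with ht | ht | ht | ht | ht <;> omega
    clear ht
    rcases hg with hg | hg <;> rcases h4 with h4 | h4 | h4 <;> omega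
  | false =>
    simp only [pT, pL, pR, lg, if_true, Bool.not_false, Bool.false_eq_true, if_false] at ht
    simp only [true_and, Bool.false_eq_true, false_and, false_or, or_true] at hg htG ⊢
    have h3 : 2 * n ≤ t.2 := by
      by_contra h
      refine htG (Or.inr ⟨?_, ?_, ?_, ?_⟩) <;> rcases ht with ht | ht | ht | ht | ht <;> omega
    clear htG
    have h4 : x + 2 * l ≤ p.1 ∨ 6 * l ≤ p.2 ∨ p.1 ≤ x - N - n := by
      rcases ht with ht | ht | ht | ht | ht <;> omega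
    clear ht
    rcases hg with hg | hg <;> rcases h4 with h4 | h4 | h4 <;> omega

theorem ind_mono {A B : Finset Pt} {W : Cfg → ℝ} (h : Ind B W) (hAB : A ⊆ B) : Ind A W :=
  fun ω ω' hω => h ω ω' fun v hv => hω v fun h' => hv (hAB h')

/-- **The arm is joined to the bank.** -/
theorem arm_bank {Q : ℝ} (hQ : 0 < Q) (hQ1 : Q ≤ 1) (hn : 2 ≤ n) (hK3 : 8 ≤ K3)
    (hKK : K3 + 8 ≤ K) (hl : 4 * (K * n) ≤ l) (he : e = Sum.inr (y, 4 * n - 1)) (hy : Odd y)
    (hyx : |y - x| ≤ 4 * n) (hz : Good S.z)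
    (hB : H318.TB S v w (4 * l) H x) (hH : 8 * l ≤ H)
    (hx1 : v - w ≤ x - 8 * l) (hx2 : x + 8 * l ≤ v + w) (hU : Pt0 S x (4 * l) U)
    {W : Cfg → ℝ} (hW0 : ∀ ω, 0 ≤ W ω) (hW : Ind (TR b S U x l (K * n)) W) :
    VT Q b (TBE b x l (K * n) n) (TLo b x (K * n) n) (TFa b x l) *
      Ex Q S.F S.z (fun ω => W ω * (AM b K3 K x n e).indicator 1 ω) ≤
      Ex Q S.F S.z (fun ω => W ω * (LN b S U K3 K x l n e).indicator 1 ω) := by
  obtain ⟨A₃, S₂, S₄, hQd, hF, hA, h2, h4⟩ := arm_data hn hK3 hKK he hy hyx b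
  have k1 : 8 * n ≤ K3 * n := mul_le_mul_of_nonneg_right hK3 (by omega)
  have k2 : K3 * n + 8 * n ≤ K * n := by
    have := mul_le_mul_of_nonneg_right hKK (show 0 ≤ n by omega)
    linarith
  have hT := cols b x l (K * n) n
  have hLg := lg_cases b x l
  have hbk : (bk b e).2 = 4 * n := by rw [bk_gate he hy]
  have hne : pr (!b) = 1 - pr b := pr_not b
  have hpe := pr_or b
  have key := net1 (Q := Q) (D := S.F) (η := S.z) (e := b) (G := GA b K3 K x n)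
    (T := TBE b x l (K * n) n) (L := LB b S U x l (K * n) n) (A₁ := {bk b e}) (A₃ := A₃)
    (A := TLo b x (K * n) n) (B := TFa b x l) (W := W) hQ hQ1 hz hQd hF Finset.sdiff_subset ?_
    (tlo_bd (by omega) (by omega) hl) (tfa_bd (by omega) (by omega) hl) ?_ ?_ ?_ hW0 ?_
  · refine (mul_le_mul_of_nonneg_left ?_ (NET.VT_nonneg hQ _ _ _ _)).trans (key.trans ?_)
    · refine Ex_mono hQ fun S' _ => mul_le_mul_of_nonneg_left ?_ (hW0 _)
      exact Set.indicator_le_indicator_of_subset hA (fun _ => zero_le_one) _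
    · refine Ex_mono hQ fun S' _ => mul_le_mul_of_nonneg_left ?_ (hW0 _)
      refine Set.indicator_le_indicator_of_subset (fun ω hω => ?_) (fun _ => zero_le_one) _
      exact ln_of_jn (by omega) (by omega) hl hB hH hx1 hx2 hU hbk hω
  · rw [tb_lb]
    exact fun q hq => (val_TR hB (by omega) (by omega) hx1 hx2 hU (Finset.mem_inter.1 hq).2).1
  · -- the lower end
    rintro a ⟨a1, a2, a3, a4⟩
    obtain ⟨c, hc1, hc2⟩ : ∃ c : ℤ, (a.1 = c ∨ a.1 = c + 1) ∧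
        pT b x (K * n) n ≤ c ∧ c < pT b x (K * n) n + n := by
      by_cases h : a.1 < pT b x (K * n) n + n
      · exact ⟨a.1, Or.inl rfl, a3, h⟩
      · exact ⟨a.1 - 1, Or.inr (by omega), by omega, by omega⟩
    refine ⟨(c, n), ?_, ⟨hc1, Or.inl a2, a1⟩, (2 * c + 1 - a.1, n), h2 _ ?_ rfl ?_, ?_, Or.inl rfl,
      ?_⟩
    · rw [mem_GA]
      right
      refine ⟨le_rfl, by dsimp only; omega, ?_⟩
      dsimp only
      rcases hT with ⟨h0, h⟩ | ⟨h0, h⟩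
      · exact Or.inl ⟨h0, by omega, by omega⟩
      · exact Or.inr ⟨h0, by omega, by omega⟩
    · dsimp only
      omega
    · unfold Col
      dsimp only
      split_ifs with hb
      · rcases hT with ⟨h0, h⟩ | ⟨h0, h⟩
        · omega
        · rw [h0] at hb
          simp at hb
      · rcases hT with ⟨h0, h⟩ | ⟨h0, h⟩
        · rw [h0] at hb
          simp at hb
        · omega
    · dsimp only
      omega
    · dsimp only
      omega
  · -- the tube leaves the region of the arm through the upper side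
    rintro t ht htG p ⟨p1, p2, p3⟩ ⟨g, hg, g1, g2, -⟩
    have hp := tube_exit (by omega) (by omega) (by omega) hl (Finset.mem_sdiff.1 ht).1 htG p1 p2
      (Finset.mem_coe.1 hg) g1 g2
    obtain ⟨hp2, hp1⟩ := hp
    obtain ⟨c, hc1, hc2⟩ : ∃ c : ℤ, (p.1 = c ∨ p.1 = c + 1) ∧
        ((b = true ∧ x + K * n + 1 ≤ c ∧ c < x + 2 * (K * n)) ∨
        (b = false ∧ x - 2 * (K * n) < c ∧ c ≤ x - K * n - 1)) := by
      rcases hp1 with ⟨h0, h⟩ | ⟨h0, h⟩
      · exact ⟨p.1 - 1, Or.inr (by omega), Or.inl ⟨h0, by omega, by omega⟩⟩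
      · exact ⟨p.1, Or.inl rfl, Or.inr ⟨h0, by omega, by omega⟩⟩
    refine ⟨(c, 2 * n - 1), Finset.mem_coe.2 ?_, ⟨hc1, Or.inr (by dsimp only; omega), p3⟩,
      (2 * c + 1 - p.1, 2 * n), h4 _ ?_ rfl ?_, ?_, Or.inr (by dsimp only; omega), ?_⟩
    · rw [mem_GA]
      right
      refine ⟨by dsimp only; omega, by dsimp only; omega, ?_⟩
      exact hc2
    · dsimp only
      omega
    · unfold Col
      dsimp only
      split_ifs with hb
      · rcases hc2 with ⟨h0, h⟩ | ⟨h0, h⟩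
        · rcases hp1 with ⟨-, h'⟩ | ⟨h0', h'⟩
          · omega
          · rw [h0] at h0'
            simp at h0'
        · rw [h0] at hb
          simp at hb
      · rcases hc2 with ⟨h0, h⟩ | ⟨h0, h⟩
        · rw [h0] at hb
          simp at hb
        · rcases hp1 with ⟨h0', h'⟩ | ⟨-, h'⟩
          · rw [h0] at h0'
            simp at h0'
          · omega
    · dsimp only
      omega
    · dsimp only
      omega
  · -- the far end
    rintro z hz ⟨g, hg, g1, g2, -⟩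
    exfalso
    have hg' := Finset.mem_coe.1 hg
    rw [mem_GA] at hg'
    rcases hz with hz | ⟨t, ht, hz⟩
    · have := hz.2.1
      omega
    · have h1 := (lb_TT (by omega) (by omega) hl (Finset.mem_coe.1 ht)).2.2.2
      have h2 := hz.2.1
      omega
  · rw [tb_lb]
    exact ind_mono hW Finset.inter_subset_right

end Vale.Agent.P167.N.H704.Q
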