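import Vale.Agent.P167.N.H704.Q.TubB
import Vale.Agent.P167.N.NET.Vrs

/-!
# P167, `0 < q < 1`, block Q-NSYM: probability of the tube
-/

set_option autoImplicit false

namespace Vale.Agent.P167.N.H704.Q

open Finset Vale.Agent.P145.FB Vale.Agent.P153 Vale.Agent.P153.Topo Vale.Agent.P167
  Vale.Agent.P167.H632 Vale.Agent.P167.H871 Vale.Agent.P167.H704 Vale.Agent.P167.H704.Q
  Vale.Agent.P167.FK Vale.Agent.P167.FKA
open Vale.Agent.P167.H262 (Rsq mem_Rsq)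
open Vale.Agent.P167.N.NET (Quad Fan Bd VT Nx Beg Exi VT_glue VT_mono VT_nonneg quad_H quad_V fan_rect VRS)

variable {e : Bool} {a b c d : ℤ} {T : Finset Pt}

theorem nx_l (hab : a < b) (hcd : c < d) {y : Pt} (h1 : y.1 = a) (h2 : c ≤ y.2) (h3 : y.2 ≤ d)
    (hp : (y.1 + y.2) % 2 = pr e) : Nx e ↑(Rsq a b c d) (NET.Vs (!e) a c d) y := by
  have hne := pr_not e
  have hpe := pr_or e
  by_cases h : y.2 < d
  · refine ⟨(a, y.2), by rw [mem_coe, mem_Rsq]; dsimp only; omega,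
      ⟨Or.inl h1, Or.inl rfl, hp⟩, (a, y.2 + 1), ⟨rfl, ?_, ?_, ?_⟩, ⟨Or.inl rfl, Or.inr rfl, ?_⟩⟩ <;>
      dsimp only <;> omega
  · refine ⟨(a, y.2 - 1), by rw [mem_coe, mem_Rsq]; dsimp only; omega,
      ⟨Or.inl h1, Or.inr (by dsimp only; omega), hp⟩, (a, y.2 - 1), ⟨rfl, ?_, ?_, ?_⟩,
      ⟨Or.inl rfl, Or.inl rfl, ?_⟩⟩ <;>
      dsimp only <;> omega

theorem nx_r (hab : a < b) (hcd : c < d) {y : Pt} (h1 : y.1 = b) (h2 : c ≤ y.2) (h3 : y.2 ≤ d)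
    (hp : (y.1 + y.2) % 2 = pr e) : Nx e ↑(Rsq a b c d) (NET.Vs (!e) b c d) y := by
  have hne := pr_not e
  have hpe := pr_or e
  by_cases h : y.2 < d
  · refine ⟨(b - 1, y.2), by rw [mem_coe, mem_Rsq]; dsimp only; omega,
      ⟨Or.inr (by dsimp only; omega), Or.inl rfl, hp⟩, (b, y.2 + 1), ⟨rfl, ?_, ?_, ?_⟩,
      ⟨Or.inr (by dsimp only; omega), Or.inr rfl, ?_⟩⟩ <;>
      dsimp only <;> omega
  · refine ⟨(b - 1, y.2 - 1), by rw [mem_coe, mem_Rsq]; dsimp only; omega,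
      ⟨Or.inr (by dsimp only; omega), Or.inr (by dsimp only; omega), hp⟩, (b, y.2 - 1),
      ⟨rfl, ?_, ?_, ?_⟩, ⟨Or.inr (by dsimp only; omega), Or.inl rfl, ?_⟩⟩ <;>
      dsimp only <;> omega

theorem nx_b (hab : a < b) (hcd : c < d) {y : Pt} (h1 : y.2 = c) (h2 : a ≤ y.1) (h3 : y.1 ≤ b)
    (hp : (y.1 + y.2) % 2 = pr e) : Nx e ↑(Rsq a b c d) (NET.Hs (!e) c a b) y := by
  have hne := pr_not e
  have hpe := pr_or e
  by_cases h : y.1 < b
  · refine ⟨(y.1, c), by rw [mem_coe, mem_Rsq]; dsimp only; omega,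
      ⟨Or.inl rfl, Or.inl h1, hp⟩, (y.1 + 1, c), ⟨rfl, ?_, ?_, ?_⟩, ⟨Or.inr rfl, Or.inl rfl, ?_⟩⟩ <;>
      dsimp only <;> omega
  · refine ⟨(y.1 - 1, c), by rw [mem_coe, mem_Rsq]; dsimp only; omega,
      ⟨Or.inr (by dsimp only; omega), Or.inl h1, hp⟩, (y.1 - 1, c), ⟨rfl, ?_, ?_, ?_⟩,
      ⟨Or.inl rfl, Or.inl rfl, ?_⟩⟩ <;>
      dsimp only <;> omega

theorem nx_t (hab : a < b) (hcd : c < d) {y : Pt} (h1 : y.2 = d) (h2 : a ≤ y.1) (h3 : y.1 ≤ b)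
    (hp : (y.1 + y.2) % 2 = pr e) : Nx e ↑(Rsq a b c d) (NET.Hs (!e) d a b) y := by
  have hne := pr_not e
  have hpe := pr_or e
  by_cases h : y.1 < b
  · refine ⟨(y.1, d - 1), by rw [mem_coe, mem_Rsq]; dsimp only; omega,
      ⟨Or.inl rfl, Or.inr (by dsimp only; omega), hp⟩, (y.1 + 1, d), ⟨rfl, ?_, ?_, ?_⟩,
      ⟨Or.inr rfl, Or.inr (by dsimp only; omega), ?_⟩⟩ <;>
      dsimp only <;> omega
  · refine ⟨(y.1 - 1, d - 1), by rw [mem_coe, mem_Rsq]; dsimp only; omega,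
      ⟨Or.inr (by dsimp only; omega), Or.inr (by dsimp only; omega), hp⟩, (y.1 - 1, d),
      ⟨rfl, ?_, ?_, ?_⟩, ⟨Or.inl rfl, Or.inr (by dsimp only; omega), ?_⟩⟩ <;>
      dsimp only <;> omega

theorem vc_sq {y : Pt} (h : y ∈ NET.Vc e ↑(Rsq a b c d)) :
    a ≤ y.1 ∧ y.1 ≤ b ∧ c ≤ y.2 ∧ y.2 ≤ d ∧ (y.1 + y.2) % 2 = pr e := by
  obtain ⟨v, hv, h1, h2, h3⟩ := h
  rw [mem_coe, mem_Rsq] at hv
  refine ⟨?_, ?_, ?_, ?_, h3⟩ <;> omega

/-- the squares of `T` outside of the rectangle touch it only at the left side -/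
theorem exi_l (hab : a < b) (hcd : c < d)
    (hT : ∀ t ∈ T, t ∉ Rsq a b c d → t.1 < a ∨ d < t.2) :
    Exi e ↑(Rsq a b c d) (NET.Vs (!e) a c d) ↑T := by
  intro t ht ht' y hy hyR
  obtain ⟨r1, r2, r3, r4, r5⟩ := vc_sq hyR
  have h := hT t (mem_coe.1 ht) fun h => ht' (mem_coe.2 h)
  obtain ⟨c1, c2, c3⟩ := hy
  exact nx_l hab hcd (by omega) r3 r4 r5

theorem exi_r (hab : a < b) (hcd : c < d)
    (hT : ∀ t ∈ T, t ∉ Rsq a b c d → b ≤ t.1 ∨ d < t.2) :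
    Exi e ↑(Rsq a b c d) (NET.Vs (!e) b c d) ↑T := by
  intro t ht ht' y hy hyR
  obtain ⟨r1, r2, r3, r4, r5⟩ := vc_sq hyR
  have h := hT t (mem_coe.1 ht) fun h => ht' (mem_coe.2 h)
  obtain ⟨c1, c2, c3⟩ := hy
  exact nx_r hab hcd (by omega) r3 r4 r5

theorem exi_t (hab : a < b) (hcd : c < d)
    (hT : ∀ t ∈ T, t ∉ Rsq a b c d → d ≤ t.2) :
    Exi e ↑(Rsq a b c d) (NET.Hs (!e) d a b) ↑T := by
  intro t ht ht' y hy hyR
  obtain ⟨r1, r2, r3, r4, r5⟩ := vc_sq hyR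
  have h := hT t (mem_coe.1 ht) fun h => ht' (mem_coe.2 h)
  obtain ⟨c1, c2, c3⟩ := hy
  exact nx_t hab hcd (by omega) r1 r2 r5

theorem exi_b (hab : a < b) (hcd : c < d)
    (hT : ∀ t ∈ T, t ∉ Rsq a b c d → t.2 < c) :
    Exi e ↑(Rsq a b c d) (NET.Hs (!e) c a b) ↑T := by
  intro t ht ht' y hy hyR
  obtain ⟨r1, r2, r3, r4, r5⟩ := vc_sq hyR
  have h := hT t (mem_coe.1 ht) fun h => ht' (mem_coe.2 h)
  obtain ⟨c1, c2, c3⟩ := hy
  exact nx_b hab hcd (by omega) r1 r2 r5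

/-- a vertical line with the squares of `T` on one side only -/
theorem bd_V {k p q : ℤ} (h : (∀ t ∈ T, p - 1 ≤ t.2 → t.2 ≤ q → k ≤ t.1) ∨
    ∀ t ∈ T, p - 1 ≤ t.2 → t.2 ≤ q → t.1 < k) : NET.Vs e k p q ⊆ Bd e T := by
  rintro y ⟨h1, h2, h3, h4⟩
  rcases h with h | h
  · refine ⟨(k - 1, y.2), fun hc => ?_, Or.inr (by dsimp only; omega), Or.inl rfl, h4⟩
    have := h _ hc (by dsimp only; omega) (by dsimp only; omega)
    dsimp only at this
    omega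
  · refine ⟨(k, y.2), fun hc => ?_, Or.inl h1, Or.inl rfl, h4⟩
    have := h _ hc (by dsimp only; omega) (by dsimp only; omega)
    dsimp only at this
    omega

/-- a horizontal line with the squares of `T` on one side only -/
theorem bd_H {k p q : ℤ} (h : (∀ t ∈ T, p - 1 ≤ t.1 → t.1 ≤ q → k ≤ t.2) ∨
    ∀ t ∈ T, p - 1 ≤ t.1 → t.1 ≤ q → t.2 < k) : NET.Hs e k p q ⊆ Bd e T := by
  rintro y ⟨h1, h2, h3, h4⟩
  rcases h with h | h
  · refine ⟨(y.1, k - 1), fun hc => ?_, Or.inl rfl, Or.inr (by dsimp only; omega), h4⟩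
    have := h _ hc (by dsimp only; omega) (by dsimp only; omega)
    dsimp only at this
    omega
  · refine ⟨(y.1, k), fun hc => ?_, Or.inl rfl, Or.inl h1, h4⟩
    have := h _ hc (by dsimp only; omega) (by dsimp only; omega)
    dsimp only at this
    omega


/-! ### Turns -/

variable {Q : ℝ} {A B : Set Pt}

/-- the rectangle has no site of `B` -/
def Av (a b c d : ℤ) (B : Set Pt) : Prop := ∀ z ∈ B, ¬ (a ≤ z.1 ∧ z.1 ≤ b ∧ c ≤ z.2 ∧ z.2 ≤ d)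

theorem bdR_l (hab : a < b) : NET.Vs e a c d ⊆ Bd e (Rsq a b c d) :=
  bd_V (Or.inl fun t ht _ _ => (mem_Rsq.1 ht).1)

theorem bdR_r (hab : a < b) : NET.Vs e b c d ⊆ Bd e (Rsq a b c d) :=
  bd_V (Or.inr fun t ht _ _ => (mem_Rsq.1 ht).2.1)

theorem bdR_b (hcd : c < d) : NET.Hs e c a b ⊆ Bd e (Rsq a b c d) :=
  bd_H (Or.inl fun t ht _ _ => (mem_Rsq.1 ht).2.2.1)

theorem bdR_t (hcd : c < d) : NET.Hs e d a b ⊆ Bd e (Rsq a b c d) :=
  bd_H (Or.inr fun t ht _ _ => (mem_Rsq.1 ht).2.2.2)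

/-- from the top to the bottom -/
theorem st_tb (hQ : 0 < Q) (hQ1 : Q ≤ 1) (hab : a < b) (hcd : c < d)
    (hA : A ⊆ NET.Hs e d a b) (hAT : A ⊆ Bd e T) (hBT : B ⊆ Bd e T)
    (hT : ∀ t ∈ T, t ∉ Rsq a b c d → t.2 < c) (hB : Av a b c d B) :
    VT Q e T A B * VT Q e (Rsq a b c d) (NET.Vs e a c d) (NET.Vs e b c d) ≤
        VT Q e (Rsq a b c d ∪ T) (NET.Vs e a c d) B ∧
      VT Q e T A B * VT Q e (Rsq a b c d) (NET.Vs e a c d) (NET.Vs e b c d) ≤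
        VT Q e (Rsq a b c d ∪ T) (NET.Vs e b c d) B := by
  have H := (quad_H e hab.le hcd.le).swap24
  have hbeg : Beg e ↑(Rsq a b c d) (NET.Hs (!e) d a b) A := fun y hy => by
    obtain ⟨y1, y2, y3, y4⟩ := hA hy
    exact nx_t hab hcd y1 y2 y3 y4
  have hz : ∀ z ∈ B, z ∈ NET.Vc e ↑(Rsq a b c d) → Nx e ↑(Rsq a b c d) (NET.Hs (!e) c a b) z :=
    fun z h1 h2 => by
      obtain ⟨r1, r2, r3, r4, r5⟩ := vc_sq h2
      exact absurd ⟨r1, r2, r3, r4⟩ (hB z h1)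
  refine ⟨VT_glue hQ hQ1 H (fan_rect _ _ _ _ _) (bdR_l hab) (bdR_r hab) hAT hbeg
    (exi_b hab hcd hT) hBT hz, ?_⟩
  have h := VT_glue hQ hQ1 H.swap13 (fan_rect _ _ _ _ _) (bdR_r hab) (bdR_l hab) hAT hbeg
    (exi_b hab hcd hT) hBT hz
  rwa [NET.VT_comm hQ e (Rsq a b c d)] at h

/-- from the bottom to the top -/
theorem st_bt (hQ : 0 < Q) (hQ1 : Q ≤ 1) (hab : a < b) (hcd : c < d)
    (hA : A ⊆ NET.Hs e c a b) (hAT : A ⊆ Bd e T) (hBT : B ⊆ Bd e T)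
    (hT : ∀ t ∈ T, t ∉ Rsq a b c d → d ≤ t.2) (hB : Av a b c d B) :
    VT Q e T A B * VT Q e (Rsq a b c d) (NET.Vs e a c d) (NET.Vs e b c d) ≤
        VT Q e (Rsq a b c d ∪ T) (NET.Vs e a c d) B ∧
      VT Q e T A B * VT Q e (Rsq a b c d) (NET.Vs e a c d) (NET.Vs e b c d) ≤
        VT Q e (Rsq a b c d ∪ T) (NET.Vs e b c d) B := by
  have H := quad_H e hab.le hcd.le
  have hbeg : Beg e ↑(Rsq a b c d) (NET.Hs (!e) c a b) A := fun y hy => by
    obtain ⟨y1, y2, y3, y4⟩ := hA hy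
    exact nx_b hab hcd y1 y2 y3 y4
  have hz : ∀ z ∈ B, z ∈ NET.Vc e ↑(Rsq a b c d) → Nx e ↑(Rsq a b c d) (NET.Hs (!e) d a b) z :=
    fun z h1 h2 => by
      obtain ⟨r1, r2, r3, r4, r5⟩ := vc_sq h2
      exact absurd ⟨r1, r2, r3, r4⟩ (hB z h1)
  refine ⟨VT_glue hQ hQ1 H (fan_rect _ _ _ _ _) (bdR_l hab) (bdR_r hab) hAT hbeg
    (exi_t hab hcd hT) hBT hz, ?_⟩
  have h := VT_glue hQ hQ1 H.swap13 (fan_rect _ _ _ _ _) (bdR_r hab) (bdR_l hab) hAT hbeg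
    (exi_t hab hcd hT) hBT hz
  rwa [NET.VT_comm hQ e (Rsq a b c d)] at h

/-- from the right to the left -/
theorem st_rl (hQ : 0 < Q) (hQ1 : Q ≤ 1) (hab : a < b) (hcd : c < d)
    (hA : A ⊆ NET.Vs e b c d) (hAT : A ⊆ Bd e T) (hBT : B ⊆ Bd e T)
    (hT : ∀ t ∈ T, t ∉ Rsq a b c d → t.1 < a ∨ d < t.2) (hB : Av a b c d B) :
    VT Q e T A B * VT Q e (Rsq a b c d) (NET.Hs e c a b) (NET.Hs e d a b) ≤
      VT Q e (Rsq a b c d ∪ T) (NET.Hs e c a b) B := by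
  have H := (quad_V e hab.le hcd.le).swap24
  have hbeg : Beg e ↑(Rsq a b c d) (NET.Vs (!e) b c d) A := fun y hy => by
    obtain ⟨y1, y2, y3, y4⟩ := hA hy
    exact nx_r hab hcd y1 y2 y3 y4
  have hz : ∀ z ∈ B, z ∈ NET.Vc e ↑(Rsq a b c d) → Nx e ↑(Rsq a b c d) (NET.Vs (!e) a c d) z :=
    fun z h1 h2 => by
      obtain ⟨r1, r2, r3, r4, r5⟩ := vc_sq h2
      exact absurd ⟨r1, r2, r3, r4⟩ (hB z h1)
  exact VT_glue hQ hQ1 H (fan_rect _ _ _ _ _) (bdR_b hcd) (bdR_t hcd) hAT hbeg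
    (exi_l hab hcd hT) hBT hz

/-- from the left to the right -/
theorem st_lr (hQ : 0 < Q) (hQ1 : Q ≤ 1) (hab : a < b) (hcd : c < d)
    (hA : A ⊆ NET.Vs e a c d) (hAT : A ⊆ Bd e T) (hBT : B ⊆ Bd e T)
    (hT : ∀ t ∈ T, t ∉ Rsq a b c d → b ≤ t.1 ∨ d < t.2) (hB : Av a b c d B) :
    VT Q e T A B * VT Q e (Rsq a b c d) (NET.Hs e c a b) (NET.Hs e d a b) ≤
      VT Q e (Rsq a b c d ∪ T) (NET.Hs e c a b) B := by
  have H := quad_V e hab.le hcd.le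
  have hbeg : Beg e ↑(Rsq a b c d) (NET.Vs (!e) a c d) A := fun y hy => by
    obtain ⟨y1, y2, y3, y4⟩ := hA hy
    exact nx_l hab hcd y1 y2 y3 y4
  have hz : ∀ z ∈ B, z ∈ NET.Vc e ↑(Rsq a b c d) → Nx e ↑(Rsq a b c d) (NET.Vs (!e) b c d) z :=
    fun z h1 h2 => by
      obtain ⟨r1, r2, r3, r4, r5⟩ := vc_sq h2
      exact absurd ⟨r1, r2, r3, r4⟩ (hB z h1)
  exact VT_glue hQ hQ1 H (fan_rect _ _ _ _ _) (bdR_b hcd) (bdR_t hcd) hAT hbeg
    (exi_r hab hcd hT) hBT hz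

/-! ### The tube -/

variable {x l N n : ℤ}

/-- **Probability of the tube**, colour `true`. -/
theorem tbe_true (hQ : 0 < Q) (hQ1 : Q ≤ 1) (hn : 1 ≤ n) (hN : 16 * n ≤ N) (hl : 4 * N ≤ l) :
    (((VT Q true (Rsq (x - 3 * l) (x - 3 * l + l) (3 * l) (7 * l))
        (NET.Hs true (7 * l) (x - 3 * l) (x - 3 * l + l))
        (NET.Hs true (3 * l) (x - 3 * l) (x - 3 * l + l)) *
      VT Q true (Rsq (x - 3 * l) (x + 3 * l) (6 * l) (7 * l))
        (NET.Vs true (x - 3 * l) (6 * l) (7 * l)) (NET.Vs true (x + 3 * l) (6 * l) (7 * l))) *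
      VT Q true (Rsq (x + 2 * l) (x + 2 * l + l) (2 * n) (7 * l))
        (NET.Hs true (2 * n) (x + 2 * l) (x + 2 * l + l))
        (NET.Hs true (7 * l) (x + 2 * l) (x + 2 * l + l))) *
      VT Q true (Rsq (x + N + 1 + n) (x + 3 * l) (2 * n) (3 * n))
        (NET.Vs true (x + N + 1 + n) (2 * n) (3 * n)) (NET.Vs true (x + 3 * l) (2 * n) (3 * n))) *
      VT Q true (Rsq (x + N + 1 + n) (x + N + 1 + n + n) n (3 * n))
        (NET.Hs true n (x + N + 1 + n) (x + N + 1 + n + n))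
        (NET.Hs true (3 * n) (x + N + 1 + n) (x + N + 1 + n + n)) ≤
    VT Q true (TBE true x l N n) (TLo true x N n) (TFa true x l) := by
  have hB0 : ∀ {z : Pt}, z ∈ NET.Hs true (3 * l) (x - 3 * l) (x - 3 * l + l) →
      z.2 = 3 * l ∧ x - 3 * l ≤ z.1 ∧ z.1 ≤ x - 3 * l + l := fun hz => ⟨hz.1, hz.2.1, hz.2.2.1⟩
  -- the arch
  have s1 := (st_tb (e := true) (T := Rsq (x - 3 * l) (x - 3 * l + l) (3 * l) (7 * l))
    (A := NET.Hs true (7 * l) (x - 3 * l) (x - 3 * l + l))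
    (B := NET.Hs true (3 * l) (x - 3 * l) (x - 3 * l + l)) (a := x - 3 * l) (b := x + 3 * l)
    (c := 6 * l) (d := 7 * l) hQ hQ1 (by omega) (by omega)
    (fun y hy => ⟨hy.1, hy.2.1, by have := hy.2.2.1; omega, hy.2.2.2⟩)
    (bdR_t (by omega)) (bdR_b (by omega)) (fun t ht htR => by
      rw [mem_Rsq] at ht htR
      omega) (fun z hz h => by
      have := hB0 hz
      omega)).2
  -- the leg
  have s2 := st_rl (e := true) (T := Rsq (x - 3 * l) (x + 3 * l) (6 * l) (7 * l) ∪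
      Rsq (x - 3 * l) (x - 3 * l + l) (3 * l) (7 * l))
    (A := NET.Vs true (x + 3 * l) (6 * l) (7 * l))
    (B := NET.Hs true (3 * l) (x - 3 * l) (x - 3 * l + l)) (a := x + 2 * l) (b := x + 2 * l + l)
    (c := 2 * n) (d := 7 * l) hQ hQ1 (by omega) (by omega)
    (fun y hy => ⟨by have := hy.1; omega, by have := hy.2.1; omega, hy.2.2.1, hy.2.2.2⟩)
    (bd_V (Or.inr fun t ht _ _ => by
      rw [mem_union, mem_Rsq, mem_Rsq] at ht
      omega)) (bd_H (Or.inl fun t ht _ _ => by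
      rw [mem_union, mem_Rsq, mem_Rsq] at ht
      omega)) (fun t ht htR => by
      rw [mem_union, mem_Rsq, mem_Rsq] at ht
      rw [mem_Rsq] at htR
      omega) (fun z hz h => by
      have := hB0 hz
      omega)
  -- the corridor
  have s3 := (st_bt (e := true) (T := Rsq (x + 2 * l) (x + 2 * l + l) (2 * n) (7 * l) ∪
      (Rsq (x - 3 * l) (x + 3 * l) (6 * l) (7 * l) ∪
      Rsq (x - 3 * l) (x - 3 * l + l) (3 * l) (7 * l)))
    (A := NET.Hs true (2 * n) (x + 2 * l) (x + 2 * l + l))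
    (B := NET.Hs true (3 * l) (x - 3 * l) (x - 3 * l + l)) (a := x + N + 1 + n) (b := x + 3 * l)
    (c := 2 * n) (d := 3 * n) hQ hQ1 (by omega) (by omega)
    (fun y hy => ⟨hy.1, by have := hy.2.1; omega, by have := hy.2.2.1; omega, hy.2.2.2⟩)
    (bd_H (Or.inl fun t ht _ _ => by
      rw [mem_union, mem_union, mem_Rsq, mem_Rsq, mem_Rsq] at ht
      omega)) (bd_H (Or.inl fun t ht _ _ => by
      rw [mem_union, mem_union, mem_Rsq, mem_Rsq, mem_Rsq] at ht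
      omega)) (fun t ht htR => by
      rw [mem_union, mem_union, mem_Rsq, mem_Rsq, mem_Rsq] at ht
      rw [mem_Rsq] at htR
      omega) (fun z hz h => by
      have := hB0 hz
      omega)).1
  -- the tube of the arm
  have s4 := st_lr (e := true) (T := Rsq (x + N + 1 + n) (x + 3 * l) (2 * n) (3 * n) ∪
      (Rsq (x + 2 * l) (x + 2 * l + l) (2 * n) (7 * l) ∪
      (Rsq (x - 3 * l) (x + 3 * l) (6 * l) (7 * l) ∪
      Rsq (x - 3 * l) (x - 3 * l + l) (3 * l) (7 * l))))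
    (A := NET.Vs true (x + N + 1 + n) (2 * n) (3 * n))
    (B := NET.Hs true (3 * l) (x - 3 * l) (x - 3 * l + l)) (a := x + N + 1 + n)
    (b := x + N + 1 + n + n) (c := n) (d := 3 * n) hQ hQ1 (by omega) (by omega)
    (fun y hy => ⟨hy.1, by have := hy.2.1; omega, hy.2.2.1, hy.2.2.2⟩)
    (bd_V (Or.inl fun t ht _ _ => by
      rw [mem_union, mem_union, mem_union, mem_Rsq, mem_Rsq, mem_Rsq, mem_Rsq] at ht
      omega)) (bd_H (Or.inl fun t ht _ _ => by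
      rw [mem_union, mem_union, mem_union, mem_Rsq, mem_Rsq, mem_Rsq, mem_Rsq] at ht
      omega)) (fun t ht htR => by
      rw [mem_union, mem_union, mem_union, mem_Rsq, mem_Rsq, mem_Rsq, mem_Rsq] at ht
      rw [mem_Rsq] at htR
      omega) (fun z hz h => by
      have := hB0 hz
      omega)
  have nn : ∀ (T : Finset Pt) (A B : Set Pt), 0 ≤ VT Q true T A B := fun T A B =>
    VT_nonneg hQ true T A B
  refine (mul_le_mul_of_nonneg_right ((mul_le_mul_of_nonneg_right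
    ((mul_le_mul_of_nonneg_right s1 (nn _ _ _)).trans s2) (nn _ _ _)).trans s3) (nn _ _ _)).trans
    (s4.trans ?_)
  have e1 : TBE true x l N n = Rsq (x + N + 1 + n) (x + N + 1 + n + n) n (3 * n) ∪
      (Rsq (x + N + 1 + n) (x + 3 * l) (2 * n) (3 * n) ∪
      (Rsq (x + 2 * l) (x + 2 * l + l) (2 * n) (7 * l) ∪
      (Rsq (x - 3 * l) (x + 3 * l) (6 * l) (7 * l) ∪
      Rsq (x - 3 * l) (x - 3 * l + l) (3 * l) (7 * l)))) := rfl
  rw [e1]
  refine VT_mono hQ ?_ ?_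
  · rintro y ⟨h1, h2, h3, h4⟩
    exact ⟨h4, h1, h2, h3⟩
  · rintro y ⟨h1, h2, h3, h4⟩
    exact ⟨h4, h1, h2, h3⟩

/-- **Probability of the tube**, colour `false`. -/
theorem tbe_false (hQ : 0 < Q) (hQ1 : Q ≤ 1) (hn : 1 ≤ n) (hN : 16 * n ≤ N) (hl : 4 * N ≤ l) :
    (((VT Q false (Rsq (x + 2 * l) (x + 2 * l + l) (3 * l) (7 * l))
        (NET.Hs false (7 * l) (x + 2 * l) (x + 2 * l + l))
        (NET.Hs false (3 * l) (x + 2 * l) (x + 2 * l + l)) *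
      VT Q false (Rsq (x - 3 * l) (x + 3 * l) (6 * l) (7 * l))
        (NET.Vs false (x - 3 * l) (6 * l) (7 * l)) (NET.Vs false (x + 3 * l) (6 * l) (7 * l))) *
      VT Q false (Rsq (x - 3 * l) (x - 3 * l + l) (2 * n) (7 * l))
        (NET.Hs false (2 * n) (x - 3 * l) (x - 3 * l + l))
        (NET.Hs false (7 * l) (x - 3 * l) (x - 3 * l + l))) *
      VT Q false (Rsq (x - 3 * l) (x - N - n) (2 * n) (3 * n))
        (NET.Vs false (x - 3 * l) (2 * n) (3 * n)) (NET.Vs false (x - N - n) (2 * n) (3 * n))) *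
      VT Q false (Rsq (x - N - 2 * n) (x - N - 2 * n + n) n (3 * n))
        (NET.Hs false n (x - N - 2 * n) (x - N - 2 * n + n))
        (NET.Hs false (3 * n) (x - N - 2 * n) (x - N - 2 * n + n)) ≤
    VT Q false (TBE false x l N n) (TLo false x N n) (TFa false x l) := by
  have hB0 : ∀ {z : Pt}, z ∈ NET.Hs false (3 * l) (x + 2 * l) (x + 2 * l + l) →
      z.2 = 3 * l ∧ x + 2 * l ≤ z.1 ∧ z.1 ≤ x + 2 * l + l := fun hz => ⟨hz.1, hz.2.1, hz.2.2.1⟩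
  -- the arch
  have s1 := (st_tb (e := false) (T := Rsq (x + 2 * l) (x + 2 * l + l) (3 * l) (7 * l))
    (A := NET.Hs false (7 * l) (x + 2 * l) (x + 2 * l + l))
    (B := NET.Hs false (3 * l) (x + 2 * l) (x + 2 * l + l)) (a := x - 3 * l) (b := x + 3 * l)
    (c := 6 * l) (d := 7 * l) hQ hQ1 (by omega) (by omega)
    (fun y hy => ⟨hy.1, by have := hy.2.1; omega, by have := hy.2.2.1; omega, hy.2.2.2⟩)
    (bdR_t (by omega)) (bdR_b (by omega)) (fun t ht htR => by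
      rw [mem_Rsq] at ht htR
      omega) (fun z hz h => by
      have := hB0 hz
      omega)).1
  -- the leg
  have s2 := st_lr (e := false) (T := Rsq (x - 3 * l) (x + 3 * l) (6 * l) (7 * l) ∪
      Rsq (x + 2 * l) (x + 2 * l + l) (3 * l) (7 * l))
    (A := NET.Vs false (x - 3 * l) (6 * l) (7 * l))
    (B := NET.Hs false (3 * l) (x + 2 * l) (x + 2 * l + l)) (a := x - 3 * l) (b := x - 3 * l + l)
    (c := 2 * n) (d := 7 * l) hQ hQ1 (by omega) (by omega)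
    (fun y hy => ⟨by have := hy.1; omega, by have := hy.2.1; omega, hy.2.2.1, hy.2.2.2⟩)
    (bd_V (Or.inl fun t ht _ _ => by
      rw [mem_union, mem_Rsq, mem_Rsq] at ht
      omega)) (bd_H (Or.inl fun t ht _ _ => by
      rw [mem_union, mem_Rsq, mem_Rsq] at ht
      omega)) (fun t ht htR => by
      rw [mem_union, mem_Rsq, mem_Rsq] at ht
      rw [mem_Rsq] at htR
      omega) (fun z hz h => by
      have := hB0 hz
      omega)
  -- the corridor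
  have s3 := (st_bt (e := false) (T := Rsq (x - 3 * l) (x - 3 * l + l) (2 * n) (7 * l) ∪
      (Rsq (x - 3 * l) (x + 3 * l) (6 * l) (7 * l) ∪
      Rsq (x + 2 * l) (x + 2 * l + l) (3 * l) (7 * l)))
    (A := NET.Hs false (2 * n) (x - 3 * l) (x - 3 * l + l))
    (B := NET.Hs false (3 * l) (x + 2 * l) (x + 2 * l + l)) (a := x - 3 * l) (b := x - N - n)
    (c := 2 * n) (d := 3 * n) hQ hQ1 (by omega) (by omega)
    (fun y hy => ⟨hy.1, by have := hy.2.1; omega, by have := hy.2.2.1; omega, hy.2.2.2⟩)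
    (bd_H (Or.inl fun t ht _ _ => by
      rw [mem_union, mem_union, mem_Rsq, mem_Rsq, mem_Rsq] at ht
      omega)) (bd_H (Or.inl fun t ht _ _ => by
      rw [mem_union, mem_union, mem_Rsq, mem_Rsq, mem_Rsq] at ht
      omega)) (fun t ht htR => by
      rw [mem_union, mem_union, mem_Rsq, mem_Rsq, mem_Rsq] at ht
      rw [mem_Rsq] at htR
      omega) (fun z hz h => by
      have := hB0 hz
      omega)).2
  -- the tube of the arm
  have s4 := st_rl (e := false) (T := Rsq (x - 3 * l) (x - N - n) (2 * n) (3 * n) ∪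
      (Rsq (x - 3 * l) (x - 3 * l + l) (2 * n) (7 * l) ∪
      (Rsq (x - 3 * l) (x + 3 * l) (6 * l) (7 * l) ∪
      Rsq (x + 2 * l) (x + 2 * l + l) (3 * l) (7 * l))))
    (A := NET.Vs false (x - N - n) (2 * n) (3 * n))
    (B := NET.Hs false (3 * l) (x + 2 * l) (x + 2 * l + l)) (a := x - N - 2 * n)
    (b := x - N - 2 * n + n) (c := n) (d := 3 * n) hQ hQ1 (by omega) (by omega)
    (fun y hy => ⟨by have := hy.1; omega, by have := hy.2.1; omega, hy.2.2.1, hy.2.2.2⟩)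
    (bd_V (Or.inr fun t ht h1 h2 => by
      rw [mem_union, mem_union, mem_union, mem_Rsq, mem_Rsq, mem_Rsq, mem_Rsq] at ht
      omega)) (bd_H (Or.inl fun t ht _ _ => by
      rw [mem_union, mem_union, mem_union, mem_Rsq, mem_Rsq, mem_Rsq, mem_Rsq] at ht
      omega)) (fun t ht htR => by
      rw [mem_union, mem_union, mem_union, mem_Rsq, mem_Rsq, mem_Rsq, mem_Rsq] at ht
      rw [mem_Rsq] at htR
      omega) (fun z hz h => by
      have := hB0 hz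
      omega)
  have nn : ∀ (T : Finset Pt) (A B : Set Pt), 0 ≤ VT Q false T A B := fun T A B =>
    VT_nonneg hQ false T A B
  refine (mul_le_mul_of_nonneg_right ((mul_le_mul_of_nonneg_right
    ((mul_le_mul_of_nonneg_right s1 (nn _ _ _)).trans s2) (nn _ _ _)).trans s3) (nn _ _ _)).trans
    (s4.trans ?_)
  have e1 : TBE false x l N n = Rsq (x - N - 2 * n) (x - N - 2 * n + n) n (3 * n) ∪
      (Rsq (x - 3 * l) (x - N - n) (2 * n) (3 * n) ∪
      (Rsq (x - 3 * l) (x - 3 * l + l) (2 * n) (7 * l) ∪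
      (Rsq (x - 3 * l) (x + 3 * l) (6 * l) (7 * l) ∪
      Rsq (x + 2 * l) (x + 2 * l + l) (3 * l) (7 * l)))) := rfl
  rw [e1]
  refine VT_mono hQ ?_ ?_
  · rintro y ⟨h1, h2, h3, h4⟩
    exact ⟨h4, h1, h2, h3⟩
  · rintro y ⟨h1, h2, h3, h4⟩
    exact ⟨h4, h1, h2, h3⟩

/-- **Probability of the tube.** -/
theorem tbe_ge (hQ : 0 < Q) (hQ1 : Q ≤ 1) (h : VRS Q) (k : ℕ) : ∃ c : ℝ, 0 < c ∧ c ≤ 1 ∧
    ∀ (b : Bool) (x l N n : ℤ), 1 ≤ n → 16 * n ≤ N → 4 * N ≤ l → l ≤ k * n →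
      c ≤ VT Q b (TBE b x l N n) (TLo b x N n) (TFa b x l) := by
  obtain ⟨c, hc, hc1, h⟩ := h (6 * k + 6)
  refine ⟨c ^ 5, pow_pos hc 5, pow_le_one₀ hc.le hc1, fun b x l N n hn1 hN hl hk => ?_⟩
  have hk' : 0 ≤ (k : ℤ) := Nat.cast_nonneg k
  have hkn : 0 ≤ (k : ℤ) * n := mul_nonneg hk' (by omega)
  have hkl : 0 ≤ (k : ℤ) * l := mul_nonneg hk' (by omega)
  have nn : ∀ (e : Bool) (T : Finset Pt) (A B : Set Pt), 0 ≤ VT Q e T A B := fun e T A B =>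
    VT_nonneg hQ e T A B
  have e5 : c ^ 5 = c * c * c * c * c := by ring
  rw [e5]
  have c2 : 0 ≤ c * c := by positivity
  have c3 : 0 ≤ c * c * c := by positivity
  have c4 : 0 ≤ c * c * c * c := by positivity
  cases b with
  | true =>
    refine le_trans ?_ (tbe_true hQ hQ1 hn1 hN hl)
    refine mul_le_mul (mul_le_mul (mul_le_mul (mul_le_mul ?_ ?_ hc.le (nn _ _ _ _)) ?_ hc.le
      (mul_nonneg (nn _ _ _ _) (nn _ _ _ _))) ?_ hc.le
      (mul_nonneg (mul_nonneg (nn _ _ _ _) (nn _ _ _ _)) (nn _ _ _ _))) ?_ hc.le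
      (mul_nonneg (mul_nonneg (mul_nonneg (nn _ _ _ _) (nn _ _ _ _)) (nn _ _ _ _)) (nn _ _ _ _))
    · rw [NET.VT_comm hQ]
      exact (h true _ _ _ _ (by omega) (by omega)).2 (by push_cast; nlinarith)
    · exact (h true _ _ _ _ (by omega) (by omega)).1 (by push_cast; nlinarith)
    · exact (h true _ _ _ _ (by omega) (by omega)).2 (by push_cast; nlinarith)
    · exact (h true _ _ _ _ (by omega) (by omega)).1 (by push_cast; nlinarith)
    · exact (h true _ _ _ _ (by omega) (by omega)).2 (by push_cast; nlinarith)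
  | false =>
    refine le_trans ?_ (tbe_false hQ hQ1 hn1 hN hl)
    refine mul_le_mul (mul_le_mul (mul_le_mul (mul_le_mul ?_ ?_ hc.le (nn _ _ _ _)) ?_ hc.le
      (mul_nonneg (nn _ _ _ _) (nn _ _ _ _))) ?_ hc.le
      (mul_nonneg (mul_nonneg (nn _ _ _ _) (nn _ _ _ _)) (nn _ _ _ _))) ?_ hc.le
      (mul_nonneg (mul_nonneg (mul_nonneg (nn _ _ _ _) (nn _ _ _ _)) (nn _ _ _ _)) (nn _ _ _ _))
    · rw [NET.VT_comm hQ]
      exact (h false _ _ _ _ (by omega) (by omega)).2 (by push_cast; nlinarith)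
    · exact (h false _ _ _ _ (by omega) (by omega)).1 (by push_cast; nlinarith)
    · exact (h false _ _ _ _ (by omega) (by omega)).2 (by push_cast; nlinarith)
    · exact (h false _ _ _ _ (by omega) (by omega)).1 (by push_cast; nlinarith)
    · exact (h false _ _ _ _ (by omega) (by omega)).2 (by push_cast; nlinarith)

end Vale.Agent.P167.N.H704.Q
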